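import Vale.Agent.P181.EX.Defs

set_option autoImplicit false

/-!
# P181, EX: the spaces are finite dimensional
-/

open MvPolynomial

namespace Vale.Agent.P181.EX.H986

open Vale.Agent.P181.T4 (HW)
open Vale.Agent.P181.EX
open Vale.Agent.P181.DG

variable {m : ℕ} {τ : Type} [Fintype τ]

/-- families of polynomials with bounded exponents -/
lemma finiteDimensional_fam (N : ℕ) (V : Submodule ℂ (Fin m → MvPolynomial (Fin m × τ) ℂ))
    (h : ∀ g ∈ V, ∀ k v, coeff v (g k) ≠ 0 → ∀ p, v p ≤ N) : FiniteDimensional ℂ V := by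
  classical
  let T := Fin m × τ → Fin (N + 1)
  let e : T → (Fin m × τ →₀ ℕ) := fun u => Finsupp.equivFunOnFinite.symm (fun p => (u p : ℕ))
  let L : V →ₗ[ℂ] (Fin m → T → ℂ) :=
    { toFun := fun g k u => coeff (e u) (g.1 k)
      map_add' := fun f g => by funext k u; exact coeff_add _ _ _
      map_smul' := fun c f => by funext k u; exact coeff_smul _ _ _ }
  have hL : Function.Injective L := by
    rw [← LinearMap.ker_eq_bot, LinearMap.ker_eq_bot']
    intro g hg
    apply Subtype.ext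
    funext k
    apply MvPolynomial.ext
    intro v
    rw [ZeroMemClass.coe_zero, Pi.zero_apply, coeff_zero]
    by_contra hv
    have h1 : ∀ p, v p < N + 1 := fun p => Nat.lt_succ_of_le (h g.1 g.2 k v hv p)
    have h5 := congrFun (congrFun hg k) (fun p => ⟨v p, h1 p⟩)
    apply hv
    have h6 : e (fun p => ⟨v p, h1 p⟩) = v := by
      ext p
      rfl
    change coeff (e (fun p => ⟨v p, h1 p⟩)) (g.1 k) = 0 at h5
    rwa [h6] at h5
  exact Module.Finite.of_injective L hL

lemma le_of_rows {mu : Fin m → ℕ} {k : Fin m} {v : Fin m × τ →₀ ℕ}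
    (h : ∀ i, ∑ j, v (i, j) + (if i = k then 1 else 0) = mu i) (p : Fin m × τ) :
    v p ≤ ∑ i, mu i := by
  have h1 := h p.1
  have h2 : v p ≤ ∑ j, v (p.1, j) :=
    Finset.single_le_sum (f := fun j => v (p.1, j)) (fun j _ => Nat.zero_le _)
      (Finset.mem_univ p.2)
  have h3 : mu p.1 ≤ ∑ i, mu i :=
    Finset.single_le_sum (fun i _ => Nat.zero_le (mu i)) (Finset.mem_univ p.1)
  omega

instance finiteDimensional_MK (m S : ℕ) (σ : Type) [Fintype σ] (d : σ → ℕ) (t : ℕ)
    (mu : Fin m → ℕ) : FiniteDimensional ℂ (MK m S σ d t mu) :=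
  Submodule.finiteDimensional_of_le (S₂ := HW m (σ ⊕ Fin t) mu) fun _ h => h.1

instance finiteDimensional_CK (m S : ℕ) (σ : Type) [Fintype σ] (d : σ → ℕ) (t : ℕ)
    (mu : Fin m → ℕ) : FiniteDimensional ℂ (CK m S σ d t mu) :=
  finiteDimensional_fam (∑ i, mu i) _ fun _ hg k v hv p => le_of_rows (hg.1 k v hv) p

instance finiteDimensional_QM (b a m : ℕ) (mu : Fin m → ℕ) :
    FiniteDimensional ℂ (QM b a m mu) :=
  Submodule.finiteDimensional_of_le (S₂ := HW m (Fin b) mu) fun _ h => h.1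

instance finiteDimensional_QC (b a m : ℕ) (mu : Fin m → ℕ) :
    FiniteDimensional ℂ (QC b a m mu) :=
  finiteDimensional_fam (∑ i, mu i) _ fun _ hg k v hv p => le_of_rows (hg.1 k v hv) p

instance finiteDimensional_PKT (m S : ℕ) (σ : Type) [Fintype σ] (d : σ → ℕ) (t : ℕ)
    (mu : Fin m → ℕ) : FiniteDimensional ℂ (PKT m S σ d t mu) :=
  Submodule.finiteDimensional_of_le (S₂ := HW m (σ ⊕ Fin t) mu) fun _ h => h.1

end Vale.Agent.P181.EX.H986
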