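import Mathlib

set_option autoImplicit false

/-!
# P181, EX (E1): weighted Hermitian forms on polynomials
-/

open MvPolynomial

namespace Vale.Agent.P181.EX.H986

variable {ι : Type}

/-- The weighted Hermitian form. -/
noncomputable def B (w : (ι →₀ ℕ) → ℝ) (f g : MvPolynomial ι ℂ) : ℂ :=
  ∑ v ∈ f.support, (w v : ℂ) * (starRingEnd ℂ (coeff v f)) * coeff v g

lemma B_eq (w : (ι →₀ ℕ) → ℝ) (f g : MvPolynomial ι ℂ) (s : Finset (ι →₀ ℕ))
    (hs : f.support ⊆ s) :
    B w f g = ∑ v ∈ s, (w v : ℂ) * (starRingEnd ℂ (coeff v f)) * coeff v g := by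
  unfold B
  apply Finset.sum_subset hs
  intro v _ hv
  rw [notMem_support_iff.1 hv, map_zero, mul_zero, zero_mul]

lemma B_add_left (w : (ι →₀ ℕ) → ℝ) (f f' g : MvPolynomial ι ℂ) :
    B w (f + f') g = B w f g + B w f' g := by
  classical
  rw [B_eq w (f + f') g (f.support ∪ f'.support) support_add,
    B_eq w f g (f.support ∪ f'.support) Finset.subset_union_left,
    B_eq w f' g (f.support ∪ f'.support) Finset.subset_union_right, ← Finset.sum_add_distrib]
  refine Finset.sum_congr rfl fun v _ => ?_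
  rw [coeff_add, map_add]
  ring

lemma B_zero_left (w : (ι →₀ ℕ) → ℝ) (g : MvPolynomial ι ℂ) : B w 0 g = 0 := by
  unfold B
  rw [support_zero, Finset.sum_empty]

lemma B_add_right (w : (ι →₀ ℕ) → ℝ) (f g g' : MvPolynomial ι ℂ) :
    B w f (g + g') = B w f g + B w f g' := by
  unfold B
  rw [← Finset.sum_add_distrib]
  refine Finset.sum_congr rfl fun v _ => ?_
  rw [coeff_add]
  ring

lemma B_smul_right (w : (ι →₀ ℕ) → ℝ) (c : ℂ) (f g : MvPolynomial ι ℂ) :
    B w f (c • g) = c * B w f g := by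
  unfold B
  rw [Finset.mul_sum]
  refine Finset.sum_congr rfl fun v _ => ?_
  rw [coeff_smul, smul_eq_mul]
  ring

lemma B_zero_right (w : (ι →₀ ℕ) → ℝ) (f : MvPolynomial ι ℂ) : B w f 0 = 0 := by
  unfold B
  refine Finset.sum_eq_zero fun v _ => ?_
  rw [coeff_zero, mul_zero]

lemma B_neg_right (w : (ι →₀ ℕ) → ℝ) (f g : MvPolynomial ι ℂ) : B w f (-g) = - B w f g := by
  have h := B_smul_right w (-1) f g
  rw [neg_one_smul, neg_one_mul] at h
  exact h

lemma B_sub_right (w : (ι →₀ ℕ) → ℝ) (f g g' : MvPolynomial ι ℂ) :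
    B w f (g - g') = B w f g - B w f g' := by
  rw [sub_eq_add_neg, B_add_right, B_neg_right, ← sub_eq_add_neg]

lemma B_sum_right {κ : Type} (w : (ι →₀ ℕ) → ℝ) (f : MvPolynomial ι ℂ) (s : Finset κ)
    (g : κ → MvPolynomial ι ℂ) : B w f (∑ k ∈ s, g k) = ∑ k ∈ s, B w f (g k) := by
  classical
  induction s using Finset.induction_on with
  | empty => rw [Finset.sum_empty, Finset.sum_empty, B_zero_right]
  | insert k s hk ih => rw [Finset.sum_insert hk, Finset.sum_insert hk, B_add_right, ih]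

lemma B_monomial (w : (ι →₀ ℕ) → ℝ) (v : ι →₀ ℕ) (r : ℂ) (g : MvPolynomial ι ℂ) :
    B w (monomial v r) g = (w v : ℂ) * (starRingEnd ℂ r) * coeff v g := by
  classical
  rw [B_eq w (monomial v r) g {v} (support_monomial_subset), Finset.sum_singleton,
    coeff_monomial, if_pos rfl]

/-- the norm -/
noncomputable def Q (w : (ι →₀ ℕ) → ℝ) (f : MvPolynomial ι ℂ) : ℝ :=
  ∑ v ∈ f.support, w v * Complex.normSq (coeff v f)

lemma B_self (w : (ι →₀ ℕ) → ℝ) (f : MvPolynomial ι ℂ) : B w f f = (Q w f : ℂ) := by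
  unfold B Q
  rw [Complex.ofReal_sum]
  refine Finset.sum_congr rfl fun v _ => ?_
  rw [Complex.ofReal_mul, Complex.normSq_eq_conj_mul_self]
  ring

lemma Q_nonneg {w : (ι →₀ ℕ) → ℝ} (hw : ∀ v, 0 ≤ w v) (f : MvPolynomial ι ℂ) : 0 ≤ Q w f :=
  Finset.sum_nonneg fun v _ => mul_nonneg (hw v) (Complex.normSq_nonneg _)

lemma eq_zero_of_Q {w : (ι →₀ ℕ) → ℝ} (hw : ∀ v, 0 < w v) {f : MvPolynomial ι ℂ}
    (h : Q w f ≤ 0) : f = 0 := by
  have h0 : Q w f = 0 := le_antisymm h (Q_nonneg (fun v => (hw v).le) f)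
  unfold Q at h0
  rw [Finset.sum_eq_zero_iff_of_nonneg fun v _ =>
    mul_nonneg (hw v).le (Complex.normSq_nonneg _)] at h0
  ext v
  rw [coeff_zero]
  by_contra hv
  have h1 := h0 v (mem_support_iff.2 hv)
  rcases mul_eq_zero.1 h1 with h2 | h2
  · exact (hw v).ne' h2
  · exact hv (Complex.normSq_eq_zero.1 h2)

/-- Cauchy-Schwarz -/
lemma re_B_le {w : (ι →₀ ℕ) → ℝ} (hw : ∀ v, 0 ≤ w v) (f g : MvPolynomial ι ℂ) :
    2 * (B w f g).re ≤ Q w f + Q w g := by
  classical
  have h1 : Q w g = ∑ v ∈ f.support ∪ g.support, w v * Complex.normSq (coeff v g) := by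
    unfold Q
    apply Finset.sum_subset Finset.subset_union_right
    intro v _ hv
    rw [notMem_support_iff.1 hv, map_zero, mul_zero]
  have h2 : Q w f = ∑ v ∈ f.support ∪ g.support, w v * Complex.normSq (coeff v f) := by
    unfold Q
    apply Finset.sum_subset Finset.subset_union_left
    intro v _ hv
    rw [notMem_support_iff.1 hv, map_zero, mul_zero]
  rw [h1, h2, B_eq w f g (f.support ∪ g.support) Finset.subset_union_left, Complex.re_sum,
    Finset.mul_sum, ← Finset.sum_add_distrib]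
  refine Finset.sum_le_sum fun v _ => ?_
  have h3 : ((w v : ℂ) * (starRingEnd ℂ (coeff v f)) * coeff v g).re =
      w v * ((coeff v f).re * (coeff v g).re + (coeff v f).im * (coeff v g).im) := by
    rw [mul_assoc, Complex.re_ofReal_mul, Complex.mul_re, Complex.conj_re, Complex.conj_im]
    ring
  rw [h3, Complex.normSq_apply, Complex.normSq_apply]
  nlinarith [mul_nonneg (hw v) (sq_nonneg ((coeff v f).re - (coeff v g).re)),
    mul_nonneg (hw v) (sq_nonneg ((coeff v f).im - (coeff v g).im))]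

/-- the derived weight -/
noncomputable def dw (w : (ι →₀ ℕ) → ℝ) (p : ι) (u : ι →₀ ℕ) : ℝ :=
  w (u + Finsupp.single p 1) / ((u p : ℝ) + 1)

/-- multiplication by a variable is adjoint to the derivative -/
lemma B_X_mul (w : (ι →₀ ℕ) → ℝ) (p : ι) (f h : MvPolynomial ι ℂ) :
    B w f (X p * h) = B (dw w p) (pderiv p f) h := by
  classical
  induction f using MvPolynomial.induction_on' with
  | monomial v r =>
    rw [B_monomial, pderiv_monomial, B_monomial, coeff_X_mul']
    by_cases hv : v p = 0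
    · rw [if_neg (by rw [Finsupp.mem_support_iff]; exact fun h => h hv), hv]
      simp
    · rw [if_pos (Finsupp.mem_support_iff.2 hv)]
      have h1 : v - Finsupp.single p 1 + Finsupp.single p 1 = v := by
        ext q
        rw [Finsupp.add_apply, Finsupp.tsub_apply]
        by_cases hq : q = p
        · subst hq
          rw [Finsupp.single_eq_same]
          omega
        · rw [Finsupp.single_eq_of_ne hq]
          omega
      have h2 : ((v - Finsupp.single p 1 : ι →₀ ℕ) p : ℝ) + 1 = v p := by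
        rw [Finsupp.tsub_apply, Finsupp.single_eq_same]
        have : (v p - 1 : ℕ) + 1 = v p := by omega
        exact_mod_cast this
      have h3 : (v p : ℂ) ≠ 0 := by exact_mod_cast hv
      rw [dw, h1, h2, map_mul, Complex.ofReal_div, map_natCast, Complex.ofReal_natCast]
      field_simp
  | add f g hf hg => rw [B_add_left, map_add, B_add_left, hf, hg]

/-- a diagonal operator can be moved into the weight -/
lemma B_diag {w w' : (ι →₀ ℕ) → ℝ} {f g g' : MvPolynomial ι ℂ}
    (h : ∀ v, coeff v f ≠ 0 → (w v : ℂ) * coeff v g' = (w' v : ℂ) * coeff v g) :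
    B w f g' = B w' f g := by
  unfold B
  refine Finset.sum_congr rfl fun v hv => ?_
  rw [mul_right_comm, h v (mem_support_iff.1 hv), mul_right_comm]

end Vale.Agent.P181.EX.H986
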